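import Mathlib

open scoped BigOperators InnerProductSpace

namespace Vale.Agent.P129

variable {𝕜 : Type*} [RCLike 𝕜]

/-- Maximal determinant embedding of a Euclidean space in an `N`-dimensional normed space. -/
theorem exists_max_det {F : Type*} [NormedAddCommGroup F] [NormedSpace 𝕜 F]
    (N : ℕ) (hN : 0 < N) (φ : F ≃ₗ[𝕜] EuclideanSpace 𝕜 (Fin N)) :
    ∃ u : EuclideanSpace 𝕜 (Fin N) →L[𝕜] F, ‖u‖ ≤ 1 ∧
      0 < ‖LinearMap.det (φ.toLinearMap ∘ₗ u.toLinearMap)‖ ∧
      ∀ v : EuclideanSpace 𝕜 (Fin N) →L[𝕜] F,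
        ‖LinearMap.det (φ.toLinearMap ∘ₗ v.toLinearMap)‖ ≤
          ‖v‖ ^ N * ‖LinearMap.det (φ.toLinearMap ∘ₗ u.toLinearMap)‖ := by
  classical
  have : FiniteDimensional 𝕜 F := LinearEquiv.finiteDimensional φ.symm
  have hfr : Module.finrank 𝕜 (EuclideanSpace 𝕜 (Fin N)) = N := by simp
  let D : (EuclideanSpace 𝕜 (Fin N) →L[𝕜] F) → ℝ :=
    fun v => ‖LinearMap.det (φ.toLinearMap ∘ₗ v.toLinearMap)‖
  have hDcont : Continuous D := by
    have h1 : Continuous fun v : EuclideanSpace 𝕜 (Fin N) →L[𝕜] F =>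
        LinearMap.det (φ.toLinearMap ∘ₗ v.toLinearMap) := by
      let L : (EuclideanSpace 𝕜 (Fin N) →L[𝕜] F) →ₗ[𝕜]
          (EuclideanSpace 𝕜 (Fin N) →L[𝕜] EuclideanSpace 𝕜 (Fin N)) :=
        { toFun := fun v => LinearMap.toContinuousLinearMap (φ.toLinearMap ∘ₗ v.toLinearMap)
          map_add' := by
            intro a b
            apply ContinuousLinearMap.ext
            intro x
            change φ (a x + b x) = φ (a x) + φ (b x)
            rw [map_add]
          map_smul' := by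
            intro a b
            apply ContinuousLinearMap.ext
            intro x
            change φ (a • b x) = a • φ (b x)
            rw [map_smul] }
      have hL : Continuous L := L.continuous_of_finiteDimensional
      have h2 : Continuous fun w : EuclideanSpace 𝕜 (Fin N) →L[𝕜] EuclideanSpace 𝕜 (Fin N) =>
          w.det := ContinuousLinearMap.continuous_det
      have := h2.comp hL
      refine this.congr ?_
      intro v
      rfl
    exact h1.norm
  have : ProperSpace (EuclideanSpace 𝕜 (Fin N) →L[𝕜] F) := FiniteDimensional.proper_rclike 𝕜 _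
  have hcomp : IsCompact (Metric.closedBall (0 : EuclideanSpace 𝕜 (Fin N) →L[𝕜] F) 1) :=
    isCompact_closedBall _ _
  obtain ⟨u, hu, hmax⟩ := hcomp.exists_isMaxOn ⟨0, by simp⟩ hDcont.continuousOn
  have hscale : ∀ (c : 𝕜) (v : EuclideanSpace 𝕜 (Fin N) →L[𝕜] F),
      D (c • v) = ‖c‖ ^ N * D v := by
    intro c v
    have : φ.toLinearMap ∘ₗ (c • v).toLinearMap = c • (φ.toLinearMap ∘ₗ v.toLinearMap) := by
      apply LinearMap.ext
      intro x
      change φ (c • v x) = c • φ (v x)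
      rw [map_smul]
    simp only [D]
    rw [this, LinearMap.det_smul, hfr, norm_mul, norm_pow]
  have hball : ∀ v : EuclideanSpace 𝕜 (Fin N) →L[𝕜] F, D v ≤ ‖v‖ ^ N * D u := by
    intro v
    by_cases hv : v = 0
    · subst hv
      have := hscale 0 0
      simp only [smul_zero, norm_zero] at this
      rw [this]
      simp [hN.ne']
    · have hv' : 0 < ‖v‖ := norm_pos_iff.mpr hv
      have h3 : ‖((‖v‖⁻¹ : ℝ) : 𝕜)‖ = ‖v‖⁻¹ := by
        rw [RCLike.norm_ofReal, abs_of_nonneg (inv_nonneg.mpr hv'.le)]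
      have h1 : ((‖v‖⁻¹ : ℝ) : 𝕜) • v ∈
          Metric.closedBall (0 : EuclideanSpace 𝕜 (Fin N) →L[𝕜] F) 1 := by
        rw [mem_closedBall_zero_iff, norm_smul, h3, inv_mul_cancel₀ hv'.ne']
      have h2 : D (((‖v‖⁻¹ : ℝ) : 𝕜) • v) ≤ D u := hmax h1
      rw [hscale, h3, inv_pow] at h2
      have h4 : 0 < ‖v‖ ^ N := pow_pos hv' N
      rw [inv_mul_le_iff₀ h4] at h2
      exact h2
  refine ⟨u, by simpa using hu, ?_, hball⟩
  have hpos : 0 < D (LinearMap.toContinuousLinearMap φ.symm.toLinearMap) := by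
    simp only [D]
    have : φ.toLinearMap ∘ₗ (LinearMap.toContinuousLinearMap φ.symm.toLinearMap).toLinearMap
        = LinearMap.id := by
      apply LinearMap.ext
      intro x
      change φ (φ.symm x) = x
      simp
    rw [this]; simp
  have h5 := hball (LinearMap.toContinuousLinearMap φ.symm.toLinearMap)
  have h6 : 0 ≤ D u := norm_nonneg _
  by_contra hcon
  have h7 : D u = 0 := le_antisymm (not_lt.mp hcon) h6
  rw [h7, mul_zero] at h5
  linarith



theorem det_diag {H : Type*} [NormedAddCommGroup H] [InnerProductSpace 𝕜 H]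
    {N : ℕ} (b : OrthonormalBasis (Fin N) 𝕜 H) (A : Finset (Fin N)) (ε : 𝕜)
    (P : H →ₗ[𝕜] H) (hP : ∀ i, P (b i) = if i ∈ A then b i else 0) :
    LinearMap.det (LinearMap.id + ε • P) = (1 + ε) ^ A.card := by
  classical
  have hM : LinearMap.toMatrix b.toBasis b.toBasis (LinearMap.id + ε • P) =
      Matrix.diagonal (fun i => if i ∈ A then 1 + ε else 1) := by
    ext i j
    have h1 : (LinearMap.id + ε • P : H →ₗ[𝕜] H) (b.toBasis j) =
        (if j ∈ A then 1 + ε else 1 : 𝕜) • b.toBasis j := by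
      simp only [OrthonormalBasis.coe_toBasis, LinearMap.add_apply, LinearMap.id_apply,
        LinearMap.smul_apply, hP j]
      split_ifs with h
      · rw [add_smul, one_smul]
      · simp
    rw [LinearMap.toMatrix_apply, h1, map_smul, Finsupp.smul_apply, Module.Basis.repr_self_apply,
      Matrix.diagonal_apply]
    by_cases hij : i = j
    · subst hij; simp
    · rw [if_neg (Ne.symm hij), if_neg hij]; simp
  rw [← LinearMap.det_toMatrix b.toBasis, hM, Matrix.det_diagonal]
  rw [Finset.prod_ite_mem_eq, Finset.prod_const]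

/-- growth comparison -/
theorem card_le_of_pow {N k : ℕ} {s : ℝ} (hs : 0 ≤ s)
    (h : ∀ ε : ℝ, 0 < ε → (1 + ε) ^ k ≤ (1 + ε * s) ^ N) : (k : ℝ) ≤ N * s := by
  by_contra hcon
  push Not at hcon
  -- (1+ε)^k ≥ 1 + kε, (1+εs)^N ≤ exp (N ε s)
  set a := (N : ℝ) * s with ha
  have ha0 : 0 ≤ a := by positivity
  have key : ∀ ε : ℝ, 0 < ε → 1 + k * ε ≤ Real.exp (a * ε) := by
    intro ε hε
    have h1 : 1 + (k : ℝ) * ε ≤ (1 + ε) ^ k := one_add_mul_le_pow (by linarith) k
    have h2 : (1 + ε * s) ^ N ≤ Real.exp (ε * s) ^ N := by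
      apply pow_le_pow_left₀ (by positivity)
      have := Real.add_one_le_exp (ε * s)
      linarith
    have h3 : Real.exp (ε * s) ^ N = Real.exp (a * ε) := by
      rw [← Real.exp_nat_mul]; congr 1; rw [ha]; ring
    linarith [h ε hε]
  -- for small ε exp(aε) ≤ 1 + aε + (aε)^2 when aε ≤ 1
  have h4 : ∀ ε : ℝ, 0 < ε → a * ε ≤ 1 → Real.exp (a * ε) ≤ 1 + a * ε + (a * ε) ^ 2 := by
    intro ε hε h
    have := Real.abs_exp_sub_one_sub_id_le (x := a * ε) (by rw [abs_le]; constructor <;> nlinarith)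
    have := (abs_le.mp this).2
    linarith
  have hd : 0 < (k : ℝ) - a := by linarith
  set ε := min (1 / (a + 1)) (((k : ℝ) - a) / (2 * (a ^ 2 + 1))) with hε
  have hε0 : 0 < ε := by
    rw [hε]; apply lt_min <;> positivity
  have hε1 : a * ε ≤ 1 := by
    have : ε ≤ 1 / (a + 1) := min_le_left _ _
    calc a * ε ≤ a * (1 / (a + 1)) := by gcongr
      _ ≤ 1 := by rw [mul_one_div, div_le_one (by positivity)]; linarith
  have h5 := key ε hε0
  have h6 := h4 ε hε0 hε1
  have h7 : (k : ℝ) * ε ≤ a * ε + (a * ε) ^ 2 := by linarith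
  have h8 : ((k : ℝ) - a) ≤ a ^ 2 * ε := by
    have : ((k : ℝ) - a) * ε ≤ (a ^ 2 * ε) * ε := by nlinarith
    exact le_of_mul_le_mul_right this hε0
  have h9 : ε ≤ ((k : ℝ) - a) / (2 * (a ^ 2 + 1)) := min_le_right _ _
  have h10 : a ^ 2 * ε ≤ a ^ 2 * (((k : ℝ) - a) / (2 * (a ^ 2 + 1))) := by gcongr
  have h11 : a ^ 2 * (((k : ℝ) - a) / (2 * (a ^ 2 + 1))) ≤ ((k : ℝ) - a) / 2 := by
    rw [mul_div_assoc', div_le_div_iff₀ (by positivity) (by positivity)]
    nlinarith [hd, sq_nonneg a]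
  linarith

theorem norm_sum_sq {H ι : Type*} [NormedAddCommGroup H] [InnerProductSpace 𝕜 H]
    {v : ι → H} (hv : Orthonormal 𝕜 v) (s : Finset ι) (c : ι → 𝕜) :
    ‖∑ i ∈ s, c i • v i‖ ^ 2 = ∑ i ∈ s, ‖c i‖ ^ 2 := by
  have h := hv.inner_sum c c s
  have h2 : ((‖∑ i ∈ s, c i • v i‖ ^ 2 : ℝ) : 𝕜) = ((∑ i ∈ s, ‖c i‖ ^ 2 : ℝ) : 𝕜) := by
    rw [RCLike.ofReal_pow, ← inner_self_eq_norm_sq_to_K (𝕜 := 𝕜), h]
    push_cast
    refine Finset.sum_congr rfl fun i _ => ?_
    rw [RCLike.conj_mul]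
  exact_mod_cast h2

theorem norm_proj_le {H ι : Type*} [NormedAddCommGroup H] [InnerProductSpace 𝕜 H]
    {v : ι → H} (hv : Orthonormal 𝕜 v) (s : Finset ι) (x : H) :
    ‖∑ i ∈ s, ⟪v i, x⟫_𝕜 • v i‖ ≤ ‖x‖ := by
  have h1 := norm_sum_sq hv s (fun i => ⟪v i, x⟫_𝕜)
  have h2 := hv.sum_inner_products_le x (s := s)
  rw [← h1] at h2
  exact le_of_sq_le_sq h2 (norm_nonneg _)



theorem orthonormal_update {H : Type*} [NormedAddCommGroup H] [InnerProductSpace 𝕜 H] {N : ℕ}
    (b : OrthonormalBasis (Fin N) 𝕜 H) (kk : Fin N) (w : H) (hw : ‖w‖ = 1)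
    (hwA : w ∈ Submodule.span 𝕜 (b '' {i | kk ≤ i})) :
    Orthonormal 𝕜 (Set.domRestrict {i | i ≤ kk} (Function.update b kk w)) := by
  classical
  have hort : ∀ i, i < kk → ∀ y ∈ Submodule.span 𝕜 (b '' {i | kk ≤ i}), ⟪b i, y⟫_𝕜 = 0 := by
    intro i hi y hy
    induction hy using Submodule.span_induction with
    | mem x hx =>
      obtain ⟨j, hj, rfl⟩ := hx
      have : kk ≤ j := hj
      rw [b.inner_eq_ite, if_neg (ne_of_lt (lt_of_lt_of_le hi this))]
    | zero => simp
    | add x y _ _ hx hy => rw [inner_add_right, hx, hy, add_zero]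
    | smul a x _ hx => rw [inner_smul_right, hx, mul_zero]
  rw [orthonormal_iff_ite]
  rintro ⟨i, hi⟩ ⟨j, hj⟩
  have hi' : i ≤ kk := hi
  have hj' : j ≤ kk := hj
  simp only [Set.domRestrict_apply, Subtype.mk.injEq]
  by_cases h1 : i = kk
  · by_cases h2 : j = kk
    · rw [h1, h2]
      simp only [Function.update_self, if_true]
      rw [inner_self_eq_norm_sq_to_K, hw]; simp
    · have h3 : j < kk := lt_of_le_of_ne hj' h2
      rw [h1, Function.update_self, Function.update_of_ne h2, if_neg (Ne.symm h2)]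
      rw [← inner_conj_symm, hort j h3 w hwA, map_zero]
  · have h3 : i < kk := lt_of_le_of_ne hi' h1
    by_cases h2 : j = kk
    · rw [h2, Function.update_self, Function.update_of_ne h1, if_neg h1]
      exact hort i h3 w hwA
    · rw [Function.update_of_ne h1, Function.update_of_ne h2, b.inner_eq_ite]


theorem dvoretzky_rogers {E : Type*} [NormedAddCommGroup E] [NormedSpace 𝕜 E]
    (hE : ¬ FiniteDimensional 𝕜 E) (n : ℕ) :
    ∃ f : Fin n → E, (∀ i, 1 / 2 ≤ ‖f i‖ ∧ ‖f i‖ ≤ 1) ∧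
      ∀ a : Fin n → 𝕜, ‖∑ i, a i • f i‖ ≤ Real.sqrt (∑ i, ‖a i‖ ^ 2) := by
  classical
  rcases Nat.eq_zero_or_pos n with hn | hn
  · subst hn
    exact ⟨fun i => i.elim0, fun i => i.elim0, fun a => by simp⟩
  -- an `N`-dimensional subspace, `N = 2 n`
  obtain ⟨v, hv⟩ : ∃ v : Fin (2 * n) → E, LinearIndependent 𝕜 v := by
    rw [← Module.le_rank_iff]
    have : Cardinal.aleph0 ≤ Module.rank 𝕜 E := by
      by_contra hcon
      exact hE (Module.rank_lt_aleph0_iff.mp (not_le.mp hcon))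
    exact (Cardinal.natCast_lt_aleph0.le).trans this
  let F := Submodule.span 𝕜 (Set.range v)
  let φ : F ≃ₗ[𝕜] EuclideanSpace 𝕜 (Fin (2 * n)) :=
    (Module.Basis.span hv).equivFun.trans (WithLp.linearEquiv 2 𝕜 (Fin (2 * n) → 𝕜)).symm
  obtain ⟨u, hu1, hupos, hmax⟩ := exists_max_det (2 * n) (by omega) φ
  have hfr : Module.finrank 𝕜 (EuclideanSpace 𝕜 (Fin (2 * n))) = 2 * n := by simp
  -- main inductive claim
  have hind : ∀ k : ℕ, k ≤ n → ∃ b : OrthonormalBasis (Fin (2 * n)) 𝕜
      (EuclideanSpace 𝕜 (Fin (2 * n))), ∀ i : Fin (2 * n), (i : ℕ) < k → 1 / 2 ≤ ‖u (b i)‖ := by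
    intro k
    induction k with
    | zero => exact fun _ => ⟨EuclideanSpace.basisFun _ 𝕜, fun i hi => absurd hi (Nat.not_lt_zero _)⟩
    | succ k ih =>
      intro hk
      obtain ⟨b, hb⟩ := ih (by omega)
      -- index set of the complement
      let A : Finset (Fin (2 * n)) := Finset.univ.filter fun i => k ≤ (i : ℕ)
      have hA : A.card = 2 * n - k := by
        have hk2 : k < 2 * n := by omega
        have : A = Finset.Ici (⟨k, hk2⟩ : Fin (2 * n)) := by
          ext i; simp [A, Fin.le_def]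
        rw [this, Fin.card_Ici]
      let P : EuclideanSpace 𝕜 (Fin (2 * n)) →L[𝕜] EuclideanSpace 𝕜 (Fin (2 * n)) :=
        ∑ i ∈ A, (innerSL 𝕜 (b i)).smulRight (b i)
      have hPapply : ∀ x, P x = ∑ i ∈ A, ⟪b i, x⟫_𝕜 • b i := by
        intro x
        simp [P]
      have hPb : ∀ i, P (b i) = if i ∈ A then b i else 0 := by
        intro i
        rw [hPapply]
        simp only [b.inner_eq_ite]
        simp
      have hPnorm : ∀ x, ‖P x‖ ≤ ‖x‖ := by
        intro x
        rw [hPapply]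
        exact norm_proj_le b.orthonormal A x
      by_contra hcon
      have hsmall : ∀ w : EuclideanSpace 𝕜 (Fin (2 * n)), ‖w‖ = 1 →
          w ∈ Submodule.span 𝕜 (b '' (A : Set (Fin (2 * n)))) → ‖u w‖ < 1 / 2 := by
        intro w hw hwA
        by_contra hcon2
        apply hcon
        push Not at hcon2
        let kk : Fin (2 * n) := ⟨k, by omega⟩
        let v' : Fin (2 * n) → EuclideanSpace 𝕜 (Fin (2 * n)) := Function.update b kk w
        let s : Set (Fin (2 * n)) := {i | i ≤ kk}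
        have hv' : Orthonormal 𝕜 (s.domRestrict v') := by
          refine orthonormal_update b kk w hw ?_
          have hAset : ({i | kk ≤ i} : Set (Fin (2 * n))) = (A : Set (Fin (2 * n))) := by
            ext i
            simp [A, kk, Fin.le_def]
          rw [hAset]
          exact hwA
        obtain ⟨b', hb'⟩ := hv'.exists_orthonormalBasis_extension_of_card_eq (by simp)
        refine ⟨b', fun i hi => ?_⟩
        have his : i ∈ s := by
          change i ≤ kk
          rw [Fin.le_def]; change (i : ℕ) ≤ k; omega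
        rw [hb' i his]
        by_cases hik : (i : ℕ) < k
        · have : i ≠ kk := by
            intro h; rw [h] at hik; simp [kk] at hik
          simp only [v', Function.update_of_ne this]
          exact hb i hik
        · have : i = kk := by
            apply Fin.ext; simp only [kk]; omega
          rw [this]
          simp only [v', Function.update_self]
          exact hcon2
      have huP : ‖u ∘L P‖ ≤ 1 / 2 := by
        refine ContinuousLinearMap.opNorm_le_bound _ (by norm_num) fun x => ?_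
        rw [ContinuousLinearMap.comp_apply]
        by_cases hPx : P x = 0
        · rw [hPx]; simp
        · have hPx' : 0 < ‖P x‖ := norm_pos_iff.mpr hPx
          have h1 : ‖u (((‖P x‖⁻¹ : ℝ) : 𝕜) • P x)‖ < 1 / 2 := by
            apply hsmall
            · rw [norm_smul, RCLike.norm_ofReal, abs_of_nonneg (inv_nonneg.mpr hPx'.le),
                inv_mul_cancel₀ hPx'.ne']
            · apply Submodule.smul_mem
              rw [hPapply]
              apply Submodule.sum_mem
              intro i hi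
              apply Submodule.smul_mem
              exact Submodule.subset_span ⟨i, hi, rfl⟩
          rw [map_smul, norm_smul, RCLike.norm_ofReal, abs_of_nonneg (inv_nonneg.mpr hPx'.le),
            inv_mul_lt_iff₀ hPx'] at h1
          have := hPnorm x
          linarith
      have hdet : ∀ ε : ℝ, 0 < ε → (1 + ε) ^ (2 * n - k) ≤ (1 + ε * (1 / 2)) ^ (2 * n) := by
        intro ε hε
        have h1 := hmax (u ∘L (ContinuousLinearMap.id 𝕜 _ + (ε : 𝕜) • P))
        have h2 : φ.toLinearMap ∘ₗ (u ∘L (ContinuousLinearMap.id 𝕜 _ + (ε : 𝕜) • P)).toLinearMap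
            = (φ.toLinearMap ∘ₗ u.toLinearMap) ∘ₗ (LinearMap.id + (ε : 𝕜) • P.toLinearMap) := by
          rfl
        rw [h2, LinearMap.det_comp, norm_mul, det_diag b A (ε : 𝕜) P.toLinearMap hPb, hA,
          norm_pow, mul_comm] at h1
        have h3 : (1 + ε) ^ (2 * n - k) ≤
            ‖u ∘L (ContinuousLinearMap.id 𝕜 _ + (ε : 𝕜) • P)‖ ^ (2 * n) := by
          have h4 : ‖(1 + (ε : 𝕜))‖ = 1 + ε := by
            have : (1 + (ε : 𝕜)) = ((1 + ε : ℝ) : 𝕜) := by push_cast; ring
            rw [this, RCLike.norm_ofReal, abs_of_nonneg (by linarith)]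
          rw [h4] at h1
          exact le_of_mul_le_mul_right h1 hupos
        refine h3.trans (pow_le_pow_left₀ (norm_nonneg _) ?_ _)
        have h5 : u ∘L (ContinuousLinearMap.id 𝕜 _ + (ε : 𝕜) • P) = u + (ε : 𝕜) • (u ∘L P) := by
          ext x; simp
        rw [h5]
        calc ‖u + (ε : 𝕜) • (u ∘L P)‖ ≤ ‖u‖ + ‖(ε : 𝕜) • (u ∘L P)‖ := norm_add_le _ _
          _ ≤ 1 + ε * (1 / 2) := by
            rw [norm_smul, RCLike.norm_ofReal, abs_of_pos hε]
            gcongr
      have hfin := card_le_of_pow (N := 2 * n) (k := 2 * n - k) (s := 1 / 2) (by norm_num) hdet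
      have : ((2 * n - k : ℕ) : ℝ) ≤ n := by
        refine hfin.trans (le_of_eq ?_)
        push_cast; ring
      have : 2 * n - k ≤ n := by exact_mod_cast this
      omega
  obtain ⟨b, hb⟩ := hind n le_rfl
  let c : Fin n → Fin (2 * n) := fun i => ⟨i, by omega⟩
  have hc : Function.Injective c := by
    intro i j hij
    have := congrArg Fin.val hij
    exact Fin.ext this
  refine ⟨fun i => ((u (b (c i)) : F) : E), fun i => ⟨?_, ?_⟩, fun a => ?_⟩
  · exact hb (c i) i.2
  · calc ‖((u (b (c i)) : F) : E)‖ = ‖u (b (c i))‖ := rfl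
      _ ≤ ‖u‖ * ‖b (c i)‖ := u.le_opNorm _
      _ ≤ 1 := by rw [b.norm_eq_one, mul_one]; exact hu1
  · have h1 : ∑ i, a i • ((u (b (c i)) : F) : E) = ((u (∑ i, a i • b (c i)) : F) : E) := by
      rw [map_sum]
      simp
    rw [h1]
    have h2 : ‖∑ i, a i • b (c i)‖ = Real.sqrt (∑ i, ‖a i‖ ^ 2) := by
      have h3 : Orthonormal 𝕜 (fun i => b (c i)) := b.orthonormal.comp c hc
      rw [← norm_sum_sq h3 Finset.univ a, Real.sqrt_sq (norm_nonneg _)]
    calc ‖((u (∑ i, a i • b (c i)) : F) : E)‖ = ‖u (∑ i, a i • b (c i))‖ := rfl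
      _ ≤ ‖u‖ * ‖∑ i, a i • b (c i)‖ := u.le_opNorm _
      _ ≤ 1 * ‖∑ i, a i • b (c i)‖ := by gcongr
      _ = Real.sqrt (∑ i, ‖a i‖ ^ 2) := by rw [one_mul, h2]

end Vale.Agent.P129
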