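import Mathlib

namespace Vale.Agent.P129

/-- `cov(N)`: the least cardinality of a family of Lebesgue null subsets of the real line whose
union is the whole real line. -/
noncomputable def covNull : Cardinal.{0} :=
  sInf {κ : Cardinal.{0} | ∃ 𝒩 : Set (Set ℝ), Cardinal.mk 𝒩 = κ ∧
    (∀ N ∈ 𝒩, MeasureTheory.volume N = 0) ∧ ⋃₀ 𝒩 = Set.univ}

end Vale.Agent.P129
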