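import Mathlib

open scoped BigOperators
open Filter Topology

namespace Vale.Agent.P129

variable {𝕜 : Type*} [RCLike 𝕜] {X : Type*} [NormedAddCommGroup X] [NormedSpace 𝕜 X]

/-- Finitely many functionals are controlled by finitely many vectors of a dense subspace. -/
theorem exists_finite_control (E : Submodule 𝕜 X) (hE : Dense (E : Set X))
    (G : Finset (X →L[𝕜] 𝕜)) :
    ∃ (r : ℕ) (φ : Fin r → X →L[𝕜] 𝕜) (w : Fin r → X), (∀ i, w i ∈ E) ∧
      ∀ g ∈ G, ∀ x, g x = ∑ i, φ i x * g (w i) := by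
  classical
  let Φ : X →L[𝕜] (G → 𝕜) := ContinuousLinearMap.pi (fun g : G => (g : X →L[𝕜] 𝕜))
  let R : Submodule 𝕜 (G → 𝕜) := Submodule.map Φ.toLinearMap E
  have hR : ∀ x, Φ x ∈ R := by
    intro x
    have hcl : IsClosed (R : Set (G → 𝕜)) := R.closed_of_finiteDimensional
    have h1 : Φ x ∈ closure (Φ '' (E : Set X)) :=
      image_closure_subset_closure_image Φ.continuous ⟨x, hE x, rfl⟩
    have h2 : Φ '' (E : Set X) ⊆ (R : Set (G → 𝕜)) := by
      rintro _ ⟨y, hy, rfl⟩
      exact ⟨y, hy, rfl⟩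
    exact (closure_minimal h2 hcl) h1
  let ΦR : X →L[𝕜] R := Φ.codRestrict R hR
  let b := Module.finBasis 𝕜 R
  have hw : ∀ i, ∃ w ∈ E, Φ w = ((b i : R) : G → 𝕜) := by
    intro i
    obtain ⟨w, hw, hw2⟩ := (b i).2
    exact ⟨w, hw, hw2⟩
  choose w hwE hw using hw
  refine ⟨Module.finrank 𝕜 R,
    fun i => (LinearMap.toContinuousLinearMap (b.coord i)) ∘L ΦR, w, hwE, ?_⟩
  intro g hg x
  have h1 := b.sum_repr (ΦR x)
  have h2 := congrArg (fun z : R => (z : G → 𝕜) ⟨g, hg⟩) h1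
  simp only [Submodule.coe_sum, Submodule.coe_smul, Finset.sum_apply, Pi.smul_apply,
    smul_eq_mul] at h2
  have h3 : ((ΦR x : R) : G → 𝕜) ⟨g, hg⟩ = g x := rfl
  rw [h3] at h2
  rw [← h2]
  refine Finset.sum_congr rfl fun i _ => ?_
  have h4 : ((b i : R) : G → 𝕜) ⟨g, hg⟩ = g (w i) := by
    rw [← hw i]; rfl
  rw [h4]
  rfl

/-- One step of the construction: functionals of norm at least `1/2` which tend to zero pointwise
on a dense subspace are eventually uniformly large on the unit ball of the part of that subspace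
annihilated by finitely many given functionals. -/
theorem exists_step (E : Submodule 𝕜 X) (hE : Dense (E : Set X)) (f : ℕ → X →L[𝕜] 𝕜)
    (hf : ∀ k, 1 / 2 ≤ ‖f k‖) (hlim : ∀ x ∈ E, Tendsto (fun k => f k x) atTop (𝓝 0))
    (G : Finset (X →L[𝕜] 𝕜)) :
    ∃ c : ℝ, 0 < c ∧ ∀ᶠ k in atTop, ∃ y ∈ E, ‖y‖ ≤ 1 ∧ (∀ g ∈ G, g y = 0) ∧ c ≤ ‖f k y‖ := by
  classical
  obtain ⟨r, φ, w, hwE, hφ⟩ := exists_finite_control E hE G
  set C : ℝ := 1 + ∑ i, ‖φ i‖ * ‖w i‖ with hC
  have hC0 : 0 < C := by positivity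
  refine ⟨1 / (8 * C), by positivity, ?_⟩
  have hsmall : Tendsto (fun k => ∑ i, ‖φ i‖ * ‖f k (w i)‖) atTop (𝓝 0) := by
    have : Tendsto (fun k => ∑ i, ‖φ i‖ * ‖f k (w i)‖) atTop (𝓝 (∑ i : Fin r, ‖φ i‖ * 0)) := by
      refine tendsto_finsetSum _ fun i _ => ?_
      exact (tendsto_const_nhds).mul (by simpa using (hlim (w i) (hwE i)).norm)
    simpa using this
  filter_upwards [hsmall.eventually (gt_mem_nhds (show (0 : ℝ) < 1 / 8 by norm_num))] with k hk
  -- a vector `z` of the open ball where `f k` is large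
  obtain ⟨z0, hz0, hz0'⟩ : ∃ z : X, ‖z‖ < 1 ∧ 1 / 4 < ‖f k z‖ :=
    (f k).exists_lt_apply_of_lt_opNorm (by linarith [hf k])
  obtain ⟨z, hz, hzE⟩ : ∃ z : X, (‖z‖ < 1 ∧ 1 / 4 < ‖f k z‖) ∧ z ∈ E := by
    have hopen : IsOpen {z : X | ‖z‖ < 1 ∧ 1 / 4 < ‖f k z‖} :=
      (isOpen_lt continuous_norm continuous_const).inter
        (isOpen_lt continuous_const (f k).continuous.norm)
    obtain ⟨z, hz, hzE⟩ := hE.inter_open_nonempty _ hopen ⟨z0, hz0, hz0'⟩
    exact ⟨z, hz, hzE⟩
  set p : X := z - ∑ i, φ i z • w i with hp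
  have hpE : p ∈ E := E.sub_mem hzE (E.sum_mem fun i _ => E.smul_mem _ (hwE i))
  have hpnorm : ‖p‖ ≤ C := by
    calc ‖p‖ ≤ ‖z‖ + ‖∑ i, φ i z • w i‖ := norm_sub_le _ _
      _ ≤ 1 + ∑ i, ‖φ i‖ * ‖w i‖ := by
        refine add_le_add hz.1.le ((norm_sum_le _ _).trans ?_)
        refine Finset.sum_le_sum fun i _ => ?_
        rw [norm_smul]
        gcongr
        calc ‖φ i z‖ ≤ ‖φ i‖ * ‖z‖ := (φ i).le_opNorm z
          _ ≤ ‖φ i‖ * 1 := by gcongr; exact hz.1.le
          _ = ‖φ i‖ := mul_one _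
  have hpg : ∀ g ∈ G, g p = 0 := by
    intro g hg
    rw [hp, map_sub, map_sum, hφ g hg z]
    simp [smul_eq_mul]
  have hfp : 1 / 8 ≤ ‖f k p‖ := by
    have h1 : f k p = f k z - ∑ i, φ i z * f k (w i) := by
      rw [hp, map_sub, map_sum]; simp
    have h2 : ‖∑ i, φ i z * f k (w i)‖ ≤ ∑ i, ‖φ i‖ * ‖f k (w i)‖ := by
      refine (norm_sum_le _ _).trans (Finset.sum_le_sum fun i _ => ?_)
      rw [norm_mul]
      gcongr
      calc ‖φ i z‖ ≤ ‖φ i‖ * ‖z‖ := (φ i).le_opNorm z
        _ ≤ ‖φ i‖ * 1 := by gcongr; exact hz.1.le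
        _ = ‖φ i‖ := mul_one _
    have h3 : ‖f k z‖ ≤ ‖f k p‖ + ‖∑ i, φ i z * f k (w i)‖ := by
      have : f k z = f k p + ∑ i, φ i z * f k (w i) := by rw [h1]; ring
      calc ‖f k z‖ = ‖f k p + ∑ i, φ i z * f k (w i)‖ := by rw [← this]
        _ ≤ _ := norm_add_le _ _
    linarith [hz.2]
  refine ⟨((C⁻¹ : ℝ) : 𝕜) • p, E.smul_mem _ hpE, ?_, ?_, ?_⟩
  · rw [norm_smul, RCLike.norm_ofReal, abs_of_pos (inv_pos.mpr hC0)]
    rw [inv_mul_le_iff₀ hC0]; linarith
  · intro g hg
    rw [map_smul, hpg g hg, smul_zero]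
  · rw [map_smul, norm_smul, RCLike.norm_ofReal, abs_of_pos (inv_pos.mpr hC0)]
    rw [one_div, mul_inv, mul_comm]
    gcongr
    simpa using hfp

/-- Selection of a triangular system. -/
theorem exists_triangular (E : Submodule 𝕜 X) (hE : Dense (E : Set X)) (f : ℕ → X →L[𝕜] 𝕜)
    (hf : ∀ k, 1 / 2 ≤ ‖f k‖)
    (hEf : ∀ x ∈ E, ∃ M : ℝ, ∀ k, ‖f k x‖ ≤ M * (1 / 2) ^ k) :
    ∃ (g : ℕ → X →L[𝕜] 𝕜) (y : ℕ → X), (∀ n, g n (y n) = 1) ∧ (∀ n, ‖y n‖ ≤ 1) ∧
      (∀ n, y n ∈ E) ∧ (∀ m n, m < n → g m (y n) = 0) ∧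
      (∀ m n, m < n → ‖g n (y m)‖ ≤ 1 / 4 * (1 / 2) ^ n) ∧
      (∀ x ∈ E, ∃ M : ℝ, ∀ n, ‖g n x‖ ≤ M * (1 / 2) ^ n) := by
  classical
  have hlim : ∀ x ∈ E, Tendsto (fun k => f k x) atTop (𝓝 0) := by
    intro x hx
    obtain ⟨M, hM⟩ := hEf x hx
    rw [tendsto_zero_iff_norm_tendsto_zero]
    refine squeeze_zero (fun _ => norm_nonneg _) hM ?_
    have := (tendsto_pow_atTop_nhds_zero_of_lt_one (r := (1 / 2 : ℝ)) (by norm_num)
      (by norm_num)).const_mul M
    simpa using this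
  let P : ℕ × (X →L[𝕜] 𝕜) × X → Prop := fun t =>
    t.2.1 t.2.2 = 1 ∧ ‖t.2.2‖ ≤ 1 ∧ t.2.2 ∈ E ∧
      ∃ (k : ℕ) (a : 𝕜), t.2.1 = a • f k ∧ ‖a‖ * (1 / 2) ^ k ≤ (1 / 2) ^ t.1
  let r : ℕ × (X →L[𝕜] 𝕜) × X → ℕ × (X →L[𝕜] 𝕜) × X → Prop := fun t t' =>
    t.1 < t'.1 ∧ t.2.1 t'.2.2 = 0 ∧ ‖t'.2.1 t.2.2‖ ≤ 1 / 4 * (1 / 2) ^ t'.1
  obtain ⟨F, hFP, hFr⟩ := exists_seq_of_forall_finset_exists P r (by
    intro s hs
    obtain ⟨c, hc, hev⟩ := exists_step E hE f hf hlim (s.image fun t => t.2.1)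
    set j : ℕ := s.sup (fun t => t.1) + 1 with hj
    have h1 : ∀ᶠ k in atTop, ((1 : ℝ) / 2) ^ k < c * (1 / 2) ^ j := by
      have := tendsto_pow_atTop_nhds_zero_of_lt_one (r := (1 / 2 : ℝ)) (by norm_num) (by norm_num)
      exact this.eventually (gt_mem_nhds (by positivity))
    have h2 : ∀ᶠ k in atTop, ∀ t ∈ s, ‖f k t.2.2‖ < c * (1 / 4 * (1 / 2) ^ j) := by
      rw [eventually_all_finset]
      intro t ht
      have := (hlim t.2.2 (hs t ht).2.2.1).norm
      rw [norm_zero] at this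
      exact this.eventually (gt_mem_nhds (by positivity))
    obtain ⟨k, ⟨y, hyE, hy1, hyG, hyc⟩, hk1, hk2⟩ := (hev.and (h1.and h2)).exists
    have hfk0 : f k y ≠ 0 := by
      intro h; rw [h, norm_zero] at hyc; linarith
    have hnorm_inv : ‖(f k y)⁻¹‖ ≤ c⁻¹ := by
      rw [norm_inv]; exact inv_anti₀ hc hyc
    refine ⟨(j, (f k y)⁻¹ • f k, y), ⟨?_, hy1, hyE, k, (f k y)⁻¹, rfl, ?_⟩, ?_⟩
    · change (f k y)⁻¹ * f k y = 1
      exact inv_mul_cancel₀ hfk0
    · change ‖(f k y)⁻¹‖ * (1 / 2) ^ k ≤ (1 / 2) ^ j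
      calc ‖(f k y)⁻¹‖ * (1 / 2) ^ k ≤ c⁻¹ * (c * (1 / 2) ^ j) := by gcongr
        _ = (1 / 2) ^ j := by rw [← mul_assoc, inv_mul_cancel₀ hc.ne', one_mul]
    · intro t ht
      refine ⟨?_, ?_, ?_⟩
      · change t.1 < j
        have : t.1 ≤ s.sup (fun t => t.1) := Finset.le_sup (f := fun t => t.1) ht
        omega
      · exact hyG t.2.1 (Finset.mem_image_of_mem (fun t => t.2.1) ht)
      · change ‖(f k y)⁻¹ * f k t.2.2‖ ≤ 1 / 4 * (1 / 2) ^ j
        rw [norm_mul]
        calc ‖(f k y)⁻¹‖ * ‖f k t.2.2‖ ≤ c⁻¹ * (c * (1 / 4 * (1 / 2) ^ j)) := by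
              gcongr
              exact (hk2 t ht).le
          _ = 1 / 4 * (1 / 2) ^ j := by rw [← mul_assoc, inv_mul_cancel₀ hc.ne', one_mul])
  have hmono : StrictMono fun n => (F n).1 := strictMono_nat_of_lt_succ fun n =>
    (hFr n (n + 1) (Nat.lt_succ_self n)).1
  have hidx : ∀ n, ((1 : ℝ) / 2) ^ (F n).1 ≤ (1 / 2) ^ n := by
    intro n
    exact pow_le_pow_of_le_one (by norm_num) (by norm_num) (hmono.le_apply)
  refine ⟨fun n => (F n).2.1, fun n => (F n).2.2, fun n => (hFP n).1, fun n => (hFP n).2.1,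
    fun n => (hFP n).2.2.1, fun m n hmn => (hFr m n hmn).2.1, fun m n hmn => ?_, ?_⟩
  · refine (hFr m n hmn).2.2.trans ?_
    gcongr 1 / 4 * ?_
    exact hidx n
  · intro x hx
    obtain ⟨M, hM⟩ := hEf x hx
    have hM0 : 0 ≤ M := by
      have := (norm_nonneg _).trans (hM 0)
      simpa using this
    refine ⟨M, fun n => ?_⟩
    obtain ⟨k, a, hga, hka⟩ := (hFP n).2.2.2
    change ‖(F n).2.1 x‖ ≤ _
    rw [hga]
    change ‖a * f k x‖ ≤ _
    rw [norm_mul]
    calc ‖a‖ * ‖f k x‖ ≤ ‖a‖ * (M * (1 / 2) ^ k) := by gcongr; exact hM k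
      _ = M * (‖a‖ * (1 / 2) ^ k) := by ring
      _ ≤ M * (1 / 2) ^ (F n).1 := by gcongr
      _ ≤ M * (1 / 2) ^ n := mul_le_mul_of_nonneg_left (hidx n) hM0

/-- A triangular system yields a separable infinite-dimensional quotient. -/
theorem quotient_of_triangular [CompleteSpace X] (E : Submodule 𝕜 X) (hE : Dense (E : Set X))
    (g : ℕ → X →L[𝕜] 𝕜) (y : ℕ → X) (hgy : ∀ n, g n (y n) = 1) (hy1 : ∀ n, ‖y n‖ ≤ 1)
    (hlow : ∀ m n, m < n → g m (y n) = 0)
    (hup : ∀ m n, m < n → ‖g n (y m)‖ ≤ 1 / 4 * (1 / 2) ^ n)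
    (hEg : ∀ x ∈ E, ∃ M : ℝ, ∀ n, ‖g n x‖ ≤ M * (1 / 2) ^ n) :
    ∃ M : Submodule 𝕜 X, IsClosed (M : Set X) ∧ TopologicalSpace.SeparableSpace (X ⧸ M) ∧
      ¬ FiniteDimensional 𝕜 (X ⧸ M) := by
  classical
  let M : Submodule 𝕜 X := ⨅ n, LinearMap.ker (g n).toLinearMap
  have hMmem : ∀ x, x ∈ M ↔ ∀ n, g n x = 0 := by
    intro x; simp [M, Submodule.mem_iInf]
  have hMclosed : IsClosed (M : Set X) := by
    have : (M : Set X) = ⋂ n, {x | g n x = 0} := by
      ext x; simp [hMmem x]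
    rw [this]
    exact isClosed_iInter fun n => isClosed_eq (g n).continuous continuous_const
  let Y : Submodule 𝕜 X := (Submodule.span 𝕜 (Set.range y)).topologicalClosure
  -- every element of `E` is a sum of an element of `M` and an element of `Y`
  have hdecomp : ∀ x ∈ E, ∃ z ∈ Y, x - z ∈ M := by
    intro x hx
    obtain ⟨B, hB⟩ := hEg x hx
    have hB0 : 0 ≤ B := by
      have := (norm_nonneg _).trans (hB 0)
      simpa using this
    let xs : ℕ → X := fun n => Nat.rec x (fun n z => z - g n z • y n) n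
    have hxs0 : xs 0 = x := rfl
    have hxss : ∀ n, xs (n + 1) = xs n - g n (xs n) • y n := fun n => rfl
    let c : ℕ → 𝕜 := fun n => g n (xs n)
    have hker : ∀ n i, i < n → g i (xs n) = 0 := by
      intro n
      induction n with
      | zero => intro i hi; exact absurd hi (Nat.not_lt_zero _)
      | succ n ih =>
        intro i hi
        rw [hxss, map_sub, map_smul, smul_eq_mul]
        rcases Nat.lt_succ_iff_lt_or_eq.mp hi with h | h
        · rw [ih i h, hlow i n h, mul_zero, sub_zero]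
        · subst h
          rw [hgy, mul_one, sub_self]
    have hsum : ∀ n, xs n = x - ∑ i ∈ Finset.range n, c i • y i := by
      intro n
      induction n with
      | zero => simp [hxs0]
      | succ n ih =>
        rw [hxss, Finset.sum_range_succ]
        change xs n - c n • y n = _
        rw [ih]; abel
    have hc : ∀ n, ‖c n‖ ≤ 2 * B * (1 / 2) ^ n := by
      intro n
      induction n using Nat.strong_induction_on with
      | _ n ih =>
        have h1 : c n = g n x - ∑ i ∈ Finset.range n, c i * g n (y i) := by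
          change g n (xs n) = _
          rw [hsum n, map_sub, map_sum]
          simp
        have h2 : ‖∑ i ∈ Finset.range n, c i * g n (y i)‖ ≤ B * (1 / 2) ^ n := by
          calc ‖∑ i ∈ Finset.range n, c i * g n (y i)‖
              ≤ ∑ i ∈ Finset.range n, ‖c i * g n (y i)‖ := norm_sum_le _ _
            _ ≤ ∑ i ∈ Finset.range n, (2 * B * (1 / 2) ^ i) * (1 / 4 * (1 / 2) ^ n) := by
                refine Finset.sum_le_sum fun i hi => ?_
                rw [norm_mul]
                have := Finset.mem_range.mp hi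
                gcongr
                · exact ih i this
                · exact hup i n this
            _ = (∑ i ∈ Finset.range n, ((1 : ℝ) / 2) ^ i) * (B * (1 / 2) * (1 / 2) ^ n) := by
                rw [Finset.sum_mul]
                refine Finset.sum_congr rfl fun i _ => ?_
                ring
            _ ≤ 2 * (B * (1 / 2) * (1 / 2) ^ n) := by
                gcongr
                exact sum_geometric_two_le n
            _ = B * (1 / 2) ^ n := by ring
        calc ‖c n‖ ≤ ‖g n x‖ + ‖∑ i ∈ Finset.range n, c i * g n (y i)‖ := by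
              rw [h1]; exact norm_sub_le _ _
          _ ≤ B * (1 / 2) ^ n + B * (1 / 2) ^ n := add_le_add (hB n) h2
          _ = 2 * B * (1 / 2) ^ n := by ring
    have hsummable : Summable fun n => c n • y n := by
      refine Summable.of_norm_bounded (g := fun n => 2 * B * (1 / 2) ^ n) ?_ ?_
      · exact (summable_geometric_two).mul_left _
      · intro n
        rw [norm_smul]
        calc ‖c n‖ * ‖y n‖ ≤ (2 * B * (1 / 2) ^ n) * 1 := by
              gcongr
              · exact hc n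
              · exact hy1 n
          _ = _ := mul_one _
    obtain ⟨z, hz⟩ := hsummable
    have hztend : Tendsto (fun n => ∑ i ∈ Finset.range n, c i • y i) atTop (𝓝 z) :=
      hz.tendsto_sum_nat
    refine ⟨z, ?_, ?_⟩
    · refine Submodule.isClosed_topologicalClosure _ |>.mem_of_tendsto hztend ?_
      refine Filter.Eventually.of_forall fun n => ?_
      apply Submodule.le_topologicalClosure
      refine Submodule.sum_mem _ fun i _ => Submodule.smul_mem _ _ ?_
      exact Submodule.subset_span ⟨i, rfl⟩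
    · rw [hMmem]
      intro i
      have h1 : Tendsto (fun n => g i (xs n)) atTop (𝓝 (g i (x - z))) := by
        have : Tendsto xs atTop (𝓝 (x - z)) := by
          have h2 : xs = fun n => x - ∑ i ∈ Finset.range n, c i • y i := funext hsum
          rw [h2]
          exact tendsto_const_nhds.sub hztend
        exact ((g i).continuous.tendsto _).comp this
      have h3 : Tendsto (fun n => g i (xs n)) atTop (𝓝 0) := by
        refine tendsto_const_nhds.congr' ?_
        filter_upwards [eventually_gt_atTop i] with n hn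
        exact (hker n i hn).symm
      exact tendsto_nhds_unique h1 h3
  refine ⟨M, hMclosed, ?_, ?_⟩
  · -- separability
    have hq : Continuous (M.mkQ) := continuous_quot_mk
    have hsep : TopologicalSpace.IsSeparable (Set.univ : Set (X ⧸ M)) := by
      have h1 : TopologicalSpace.IsSeparable (Y : Set X) := by
        have : TopologicalSpace.IsSeparable (Submodule.span 𝕜 (Set.range y) : Set X) :=
          (Set.countable_range y).isSeparable.span
        exact this.closure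
      have h2 : TopologicalSpace.IsSeparable (closure (M.mkQ '' (Y : Set X))) :=
        (h1.image hq).closure
      refine h2.mono fun v _ => ?_
      have h3 : M.mkQ '' (E : Set X) ⊆ M.mkQ '' (Y : Set X) := by
        rintro _ ⟨x, hx, rfl⟩
        obtain ⟨z, hz, hxz⟩ := hdecomp x hx
        refine ⟨z, hz, ?_⟩
        symm
        rw [Submodule.mkQ_apply, Submodule.mkQ_apply, Submodule.Quotient.eq]
        exact hxz
      refine closure_mono h3 ?_
      obtain ⟨x, rfl⟩ := M.mkQ_surjective v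
      exact image_closure_subset_closure_image hq ⟨x, hE x, rfl⟩
    exact TopologicalSpace.isSeparable_univ_iff.mp hsep
  · intro hfin
    have hli : LinearIndependent 𝕜 fun n => M.mkQ (y n) := by
      rw [linearIndependent_iff']
      intro s a ha
      have h1 : ∑ i ∈ s, a i • y i ∈ M := by
        rw [← Submodule.Quotient.mk_eq_zero, ← Submodule.mkQ_apply, map_sum]
        simpa using ha
      intro i
      induction i using Nat.strong_induction_on with
      | _ i ih =>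
        intro hi
        have h2 := (hMmem _).mp h1 i
        rw [map_sum] at h2
        simp only [map_smul, smul_eq_mul] at h2
        rw [Finset.sum_eq_single_of_mem i hi] at h2
        · rwa [hgy, mul_one] at h2
        · intro j hj hji
          rcases lt_or_gt_of_ne hji with h | h
          · rw [ih j h hj, zero_mul]
          · rw [hlow i j h, mul_zero]
    exact absurd hli.finite_of_isNoetherian (not_finite_iff_infinite.mpr inferInstance)

/-- If functionals of norm at least `1/2` are rapidly null on a dense subspace, there is a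
separable infinite-dimensional quotient. -/
theorem separable_quotient_of_rapidly_null [CompleteSpace X] (E : Submodule 𝕜 X)
    (hE : Dense (E : Set X)) (f : ℕ → X →L[𝕜] 𝕜) (hf : ∀ k, 1 / 2 ≤ ‖f k‖)
    (hEf : ∀ x ∈ E, ∃ M : ℝ, ∀ k, ‖f k x‖ ≤ M * (1 / 2) ^ k) :
    ∃ M : Submodule 𝕜 X, IsClosed (M : Set X) ∧ TopologicalSpace.SeparableSpace (X ⧸ M) ∧
      ¬ FiniteDimensional 𝕜 (X ⧸ M) := by
  obtain ⟨g, y, h1, h2, _, h4, h5, h6⟩ := exists_triangular E hE f hf hEf
  exact quotient_of_triangular E hE g y h1 h2 h4 h5 h6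

end Vale.Agent.P129
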