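import Mathlib

open scoped BigOperators
open Filter Topology

namespace Vale.Agent.P129

variable {𝕜 : Type*} [RCLike 𝕜] {X : Type*} [NormedAddCommGroup X] [NormedSpace 𝕜 X]

/-- A functional is continuous for the weak topology. -/
theorem continuous_weak_eval (f : X →L[𝕜] 𝕜) :
    Continuous fun x : WeakSpace 𝕜 X => f ((toWeakSpace 𝕜 X).symm x) :=
  WeakBilin.eval_continuous (topDualPairing 𝕜 X).flip f

/-- Closed subspaces are weakly closed. -/
theorem isClosed_weak_image (L : Submodule 𝕜 X) (hL : IsClosed (L : Set X)) :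
    IsClosed (toWeakSpace 𝕜 X '' (L : Set X)) := by
  have : (toWeakSpace 𝕜 X '' (L : Set X)) =
      ⋂ f : {f : X →L[𝕜] 𝕜 // ∀ x ∈ L, f x = 0}, {x | f.1 ((toWeakSpace 𝕜 X).symm x) = 0} := by
    ext x
    simp only [Set.mem_iInter, Subtype.forall]
    constructor
    · rintro ⟨y, hy, rfl⟩ f hf
      change f y = 0
      exact hf y hy
    · intro h
      refine ⟨(toWeakSpace 𝕜 X).symm x, ?_, by simp⟩
      by_contra hx
      have hL' : IsClosed (L : Set X) := hL
      obtain ⟨f, hf⟩ : ∃ f : X →L[𝕜] 𝕜, (∀ x ∈ L, f x = 0) ∧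
          f ((toWeakSpace 𝕜 X).symm x) ≠ 0 := by
        set x' : X := (toWeakSpace 𝕜 X).symm x
        have hcl : closure (L : Set X) = L := hL'.closure_eq
        have hne : ‖L.mkQ x'‖ ≠ 0 := by
          intro h0
          have h1 : x' ∈ closure (L.toAddSubgroup : Set X) :=
            QuotientAddGroup.norm_mk_eq_zero_iff_mem_closure.mp h0
          have h2 : x' ∈ closure (L : Set X) := h1
          rw [hcl] at h2
          exact hx h2
        obtain ⟨g, _, hg⟩ := exists_dual_vector 𝕜 (L.mkQ x') hne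
        refine ⟨g ∘L L.mkQL, ?_, ?_⟩
        · intro y hy
          have : L.mkQL y = 0 := (Submodule.Quotient.mk_eq_zero L).mpr hy
          rw [ContinuousLinearMap.comp_apply, this, map_zero]
        · rw [ContinuousLinearMap.comp_apply]
          change g (L.mkQ x') ≠ 0
          rw [hg]
          simpa using hne
      exact hf.2 (h f hf.1)
  rw [this]
  exact isClosed_iInter fun f => isClosed_eq (continuous_weak_eval f.1) continuous_const

/-- Key observation: modulo the common kernel of countably many functionals, a weakly compact set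
lies in a separable subspace. -/
theorem exists_countable_generating {ι : Type*} [Countable ι] (g : ι → X →L[𝕜] 𝕜) (K : Set X)
    (hK : IsCompact (toWeakSpace 𝕜 X '' K)) :
    ∃ A : Set X, A ⊆ K ∧ A.Countable ∧ ∀ L : Submodule 𝕜 X, IsClosed (L : Set X) → A ⊆ L →
      (∀ x, (∀ i, g i x = 0) → x ∈ L) → K ⊆ L := by
  classical
  let G : X → (ι → 𝕜) := fun x i => g i x
  let Gw : WeakSpace 𝕜 X → (ι → 𝕜) := fun x i => g i ((toWeakSpace 𝕜 X).symm x)
  have hGw : Continuous Gw := continuous_pi fun i => continuous_weak_eval (g i)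
  have hsep : TopologicalSpace.IsSeparable (G '' K) := TopologicalSpace.IsSeparable.of_separableSpace _
  obtain ⟨t, htK, htc, hKt⟩ := hsep.exists_countable_dense_subset
  have hsel : ∀ z : t, ∃ x ∈ K, G x = z := fun z => htK z.2
  choose sel hselK hselG using hsel
  have : Countable t := htc.to_subtype
  refine ⟨Set.range sel, ?_, Set.countable_range sel, ?_⟩
  · rintro _ ⟨z, rfl⟩; exact hselK z
  · intro L hL hAL hker x hx
    have hcomp : IsCompact ((toWeakSpace 𝕜 X '' K) ∩ (toWeakSpace 𝕜 X '' (L : Set X))) :=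
      hK.inter_right (isClosed_weak_image L hL)
    have hclosed : IsClosed (Gw '' ((toWeakSpace 𝕜 X '' K) ∩ (toWeakSpace 𝕜 X '' (L : Set X)))) :=
      (hcomp.image hGw).isClosed
    have ht : t ⊆ Gw '' ((toWeakSpace 𝕜 X '' K) ∩ (toWeakSpace 𝕜 X '' (L : Set X))) := by
      intro z hz
      refine ⟨toWeakSpace 𝕜 X (sel ⟨z, hz⟩), ⟨⟨_, hselK _, rfl⟩, ⟨_, hAL ⟨_, rfl⟩, rfl⟩⟩, ?_⟩
      exact hselG ⟨z, hz⟩
    have h1 : G x ∈ Gw '' ((toWeakSpace 𝕜 X '' K) ∩ (toWeakSpace 𝕜 X '' (L : Set X))) :=
      closure_minimal ht hclosed (hKt ⟨x, hx, rfl⟩)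
    obtain ⟨_, ⟨_, ⟨y, hy, rfl⟩⟩, hyG⟩ := h1
    have h2 : x - y ∈ L := by
      apply hker
      intro i
      have := congrFun hyG i
      change g i y = g i x at this
      rw [map_sub, this, sub_self]
    have := L.add_mem h2 hy
    simpa using this

end Vale.Agent.P129
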