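import Mathlib
import Vale.Agent.Lib.P129.Defs
import Vale.Agent.Lib.P129.DR
import Vale.Agent.Lib.P129.SQ
import Vale.Agent.Lib.P129.Weak

open scoped BigOperators
open Filter Topology MeasureTheory

namespace Vale.Agent.P129

universe u v

/-- Fewer than `cov(N)` null sets do not cover the line. -/
theorem exists_forall_notMem {ι : Type u} (N : ι → Set ℝ) (hN : ∀ i, volume (N i) = 0)
    (hι : Cardinal.mk ι < Cardinal.lift.{u} covNull) : ∃ t, ∀ i, t ∉ N i := by
  by_contra hcon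
  push Not at hcon
  have h1 : covNull ≤ Cardinal.mk (Set.range N) := by
    refine csInf_le' ⟨Set.range N, rfl, ?_, ?_⟩
    · rintro _ ⟨i, rfl⟩; exact hN i
    · ext t
      simp only [Set.mem_sUnion, Set.mem_range, exists_exists_eq_and, Set.mem_univ, iff_true]
      exact hcon t
  have h2 : Cardinal.lift.{u} (Cardinal.mk (Set.range N)) ≤ Cardinal.lift.{0} (Cardinal.mk ι) :=
    Cardinal.mk_range_le_lift
  rw [Cardinal.lift_uzero] at h2
  have h3 : Cardinal.lift.{u} covNull ≤ Cardinal.lift.{u} (Cardinal.mk (Set.range N)) :=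
    Cardinal.lift_le.mpr h1
  exact absurd hι (not_lt.mpr (h3.trans h2))

/-- The index of the subinterval of length `1 / n` of `[0,1)` containing `Int.fract t`. -/
noncomputable def slot (n : ℕ) (hn : 0 < n) (t : ℝ) : Fin n :=
  ⟨⌊(n : ℝ) * Int.fract t⌋₊, by
    rw [Nat.floor_lt (by positivity)]
    have h1 : (0 : ℝ) < n := by exact_mod_cast hn
    have h2 := Int.fract_lt_one t
    nlinarith⟩

theorem volume_slot_le (n : ℕ) (hn : 0 < n) (S : Finset (Fin n)) :
    volume {t : ℝ | 0 ≤ t ∧ t < 1 ∧ slot n hn t ∈ S} ≤ ENNReal.ofReal (S.card / n) := by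
  have hn' : (0 : ℝ) < n := by exact_mod_cast hn
  have hsub : {t : ℝ | 0 ≤ t ∧ t < 1 ∧ slot n hn t ∈ S} ⊆
      ⋃ i ∈ S, Set.Ico (((i : ℕ) : ℝ) / n) ((((i : ℕ) : ℝ) + 1) / n) := by
    rintro t ⟨h0, h1, hS⟩
    simp only [Set.mem_iUnion]
    refine ⟨slot n hn t, hS, ?_⟩
    have hfr : Int.fract t = t := Int.fract_eq_self.mpr ⟨h0, h1⟩
    have h2 : ((slot n hn t : Fin n) : ℕ) = ⌊(n : ℝ) * t⌋₊ := by simp [slot, hfr]
    rw [h2, Set.mem_Ico, div_le_iff₀ hn', lt_div_iff₀ hn', mul_comm t]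
    exact ⟨Nat.floor_le (by positivity), Nat.lt_floor_add_one _⟩
  calc volume {t : ℝ | 0 ≤ t ∧ t < 1 ∧ slot n hn t ∈ S}
      ≤ volume (⋃ i ∈ S, Set.Ico (((i : ℕ) : ℝ) / n) ((((i : ℕ) : ℝ) + 1) / n)) :=
        measure_mono hsub
    _ ≤ ∑ i ∈ S, volume (Set.Ico (((i : ℕ) : ℝ) / n) ((((i : ℕ) : ℝ) + 1) / n)) :=
        measure_biUnion_finset_le _ _
    _ = ∑ i ∈ S, ENNReal.ofReal (1 / n) := by
        refine Finset.sum_congr rfl fun i _ => ?_
        rw [Real.volume_Ico]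
        congr 1
        field_simp
        ring
    _ = ENNReal.ofReal (S.card / n) := by
        rw [Finset.sum_const, nsmul_eq_mul, ← ENNReal.ofReal_natCast,
          ← ENNReal.ofReal_mul (by positivity)]
        congr 1
        ring

/-- Sets of real numbers whose fractional part lies in a null subset of `[0,1)` are null. -/
theorem volume_fract_preimage (N : Set ℝ) (hN : volume N = 0) :
    volume {t : ℝ | Int.fract t ∈ N} = 0 := by
  have hsub : {t : ℝ | Int.fract t ∈ N} ⊆ ⋃ m : ℤ, (fun t => t - (m : ℝ)) ⁻¹' N := by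
    intro t ht
    simp only [Set.mem_iUnion]
    exact ⟨⌊t⌋, ht⟩
  refine measure_mono_null hsub ?_
  rw [measure_iUnion_null_iff]
  intro m
  have := measure_preimage_add_right (volume : Measure ℝ) (-(m : ℝ)) N
  simp only [← sub_eq_add_neg] at this
  rw [this, hN]

variable {𝕜 : Type v} [RCLike 𝕜] {X : Type u} [NormedAddCommGroup X] [NormedSpace 𝕜 X]

theorem dual_not_finiteDimensional (hX : ¬ FiniteDimensional 𝕜 X) :
    ¬ FiniteDimensional 𝕜 (X →L[𝕜] 𝕜) := by
  intro h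
  apply hX
  let J : X →ₗ[𝕜] (Module.Dual 𝕜 (X →L[𝕜] 𝕜)) :=
    { toFun := fun x =>
        { toFun := fun f => f x, map_add' := fun _ _ => rfl, map_smul' := fun _ _ => rfl }
      map_add' := by
        intro x y; apply LinearMap.ext; intro f; exact map_add f x y
      map_smul' := by
        intro c x; apply LinearMap.ext; intro f; exact map_smul f c x }
  have hinj : Function.Injective J := by
    intro x y hxy
    rw [← sub_eq_zero, SeparatingDual.eq_zero_iff_forall_dual_eq_zero (R := 𝕜)]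
    intro f
    have := LinearMap.congr_fun hxy f
    change f x = f y at this
    rw [map_sub, this, sub_self]
  exact Module.Finite.of_injective J hinj

/-- Systems of functionals with an upper `ℓ₂` estimate. -/
theorem exists_system (hX : ¬ FiniteDimensional 𝕜 X) (n : ℕ) :
    ∃ u : Fin n → (X →L[𝕜] 𝕜), (∀ i, 1 / 2 ≤ ‖u i‖) ∧
      ∀ x, ∑ i, ‖u i x‖ ^ 2 ≤ ‖x‖ ^ 2 := by
  obtain ⟨u, hu, hsum⟩ := dvoretzky_rogers (dual_not_finiteDimensional hX) n
  refine ⟨u, fun i => (hu i).1, fun x => ?_⟩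
  set S : ℝ := ∑ i, ‖u i x‖ ^ 2 with hS
  have hS0 : 0 ≤ S := by positivity
  have h1 : ((∑ i, (starRingEnd 𝕜 (u i x)) • u i : X →L[𝕜] 𝕜)) x = ((S : ℝ) : 𝕜) := by
    rw [sum_apply]
    simp only [smul_apply, smul_eq_mul, RCLike.conj_mul, hS]
    push_cast
    rfl
  have h2 : S ≤ Real.sqrt S * ‖x‖ := by
    calc S = ‖((S : ℝ) : 𝕜)‖ := by rw [RCLike.norm_ofReal, abs_of_nonneg hS0]
      _ = ‖((∑ i, (starRingEnd 𝕜 (u i x)) • u i : X →L[𝕜] 𝕜)) x‖ := by rw [h1]
      _ ≤ ‖(∑ i, (starRingEnd 𝕜 (u i x)) • u i : X →L[𝕜] 𝕜)‖ * ‖x‖ :=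
        ContinuousLinearMap.le_opNorm _ _
      _ ≤ Real.sqrt S * ‖x‖ := by
        gcongr
        refine (hsum _).trans (le_of_eq ?_)
        simp [hS]
  rcases hS0.eq_or_lt with h | h
  · rw [← h]; positivity
  · have h3 : 0 < Real.sqrt S := Real.sqrt_pos.mpr h
    have h4 : Real.sqrt S * Real.sqrt S = S := Real.mul_self_sqrt hS0
    have h5 : Real.sqrt S ≤ ‖x‖ := by
      have : Real.sqrt S * Real.sqrt S ≤ Real.sqrt S * ‖x‖ := by rw [h4]; exact h2
      exact le_of_mul_le_mul_left this h3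
    calc S = Real.sqrt S ^ 2 := by rw [sq, h4]
      _ ≤ ‖x‖ ^ 2 := by gcongr

/-- Main theorem: fewer than `cov(N)` weakly compact sets. -/
theorem separable_quotient_of_lt_covNull [CompleteSpace X] (hX : ¬ FiniteDimensional 𝕜 X)
    (𝒦 : Set (Set X)) (hK : ∀ K ∈ 𝒦, IsCompact (toWeakSpace 𝕜 X '' K))
    (hspan : (Submodule.span 𝕜 (⋃₀ 𝒦)).topologicalClosure = ⊤)
    (hcard : Cardinal.mk 𝒦 < Cardinal.lift.{u} covNull) :
    ∃ M : Submodule 𝕜 X, IsClosed (M : Set X) ∧ TopologicalSpace.SeparableSpace (X ⧸ M) ∧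
      ¬ FiniteDimensional 𝕜 (X ⧸ M) := by
  classical
  choose u hu1 husum using fun k : ℕ => exists_system hX (8 ^ k)
  have hpos : ∀ k : ℕ, 0 < 8 ^ k := fun k => by positivity
  -- the bad sets
  let S : X → ∀ k : ℕ, Finset (Fin (8 ^ k)) := fun x k =>
    Finset.univ.filter fun i => (1 / 2 : ℝ) ^ k < ‖u k i x‖
  let B : X → ℕ → Set ℝ := fun x k => {t : ℝ | 0 ≤ t ∧ t < 1 ∧ slot (8 ^ k) (hpos k) t ∈ S x k}
  have hScard : ∀ x k, ((S x k).card : ℝ) ≤ 4 ^ k * ‖x‖ ^ 2 := by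
    intro x k
    have h1 : ∑ i ∈ S x k, ((1 / 2 : ℝ) ^ k) ^ 2 ≤ ∑ i, ‖u k i x‖ ^ 2 := by
      calc ∑ i ∈ S x k, ((1 / 2 : ℝ) ^ k) ^ 2 ≤ ∑ i ∈ S x k, ‖u k i x‖ ^ 2 := by
            refine Finset.sum_le_sum fun i hi => ?_
            have := (Finset.mem_filter.mp hi).2
            gcongr
        _ ≤ ∑ i, ‖u k i x‖ ^ 2 :=
            Finset.sum_le_sum_of_subset_of_nonneg (Finset.subset_univ _)
              fun _ _ _ => by positivity
    rw [Finset.sum_const, nsmul_eq_mul] at h1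
    have h2 : ((S x k).card : ℝ) * ((1 / 2 : ℝ) ^ k) ^ 2 ≤ ‖x‖ ^ 2 := h1.trans (husum k x)
    have h3 : (4 : ℝ) ^ k * ((1 / 2 : ℝ) ^ k) ^ 2 = 1 := by
      rw [← pow_mul, mul_comm k 2, pow_mul, ← mul_pow]; norm_num
    calc ((S x k).card : ℝ) = 4 ^ k * (((S x k).card : ℝ) * ((1 / 2 : ℝ) ^ k) ^ 2) := by
          rw [mul_left_comm, h3, mul_one]
      _ ≤ 4 ^ k * ‖x‖ ^ 2 := by gcongr
  have hBvol : ∀ x k, volume (B x k) ≤ ENNReal.ofReal (‖x‖ ^ 2 * (1 / 2) ^ k) := by
    intro x k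
    refine (volume_slot_le (8 ^ k) (hpos k) (S x k)).trans (ENNReal.ofReal_le_ofReal ?_)
    push_cast
    rw [div_le_iff₀ (by positivity)]
    refine (hScard x k).trans (le_of_eq ?_)
    rw [mul_assoc, ← mul_pow, mul_comm]; norm_num
  have hnull : ∀ x, volume (limsup (B x) atTop) = 0 := by
    intro x
    apply measure_limsup_atTop_eq_zero
    have hs : Summable fun k : ℕ => ‖x‖ ^ 2 * (1 / 2 : ℝ) ^ k :=
      (summable_geometric_two).mul_left _
    refine ne_top_of_le_ne_top ?_ (ENNReal.tsum_le_tsum (hBvol x))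
    rw [← ENNReal.ofReal_tsum_of_nonneg (fun k => by positivity) hs]
    exact ENNReal.ofReal_ne_top
  -- countable generating sets of the members of `𝒦`
  have hgen : ∀ K : 𝒦, ∃ A : Set X, A ⊆ K ∧ A.Countable ∧ ∀ L : Submodule 𝕜 X,
      IsClosed (L : Set X) → A ⊆ L →
      (∀ x, (∀ i : (Σ k : ℕ, Fin (8 ^ k)), u i.1 i.2 x = 0) → x ∈ L) → (K : Set X) ⊆ L :=
    fun K => exists_countable_generating (fun i : (Σ k : ℕ, Fin (8 ^ k)) => u i.1 i.2) K
      (hK K K.2)
  choose A hAK hAc hAgen using hgen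
  obtain ⟨t, ht⟩ := exists_forall_notMem
    (fun K : 𝒦 => ⋃ x ∈ A K, {t : ℝ | Int.fract t ∈ limsup (B x) atTop}) (by
      intro K
      rw [measure_biUnion_null_iff (hAc K)]
      intro x _
      exact volume_fract_preimage _ (hnull x)) hcard
  let f : ℕ → X →L[𝕜] 𝕜 := fun k => u k (slot (8 ^ k) (hpos k) (Int.fract t))
  have hf : ∀ k, 1 / 2 ≤ ‖f k‖ := fun k => hu1 k _
  let E : Submodule 𝕜 X :=
    { carrier := {x | ∃ M : ℝ, ∀ k, ‖f k x‖ ≤ M * (1 / 2) ^ k}
      add_mem' := by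
        rintro x y ⟨M, hM⟩ ⟨M', hM'⟩
        refine ⟨M + M', fun k => ?_⟩
        rw [map_add, add_mul]
        exact (norm_add_le _ _).trans (add_le_add (hM k) (hM' k))
      zero_mem' := ⟨0, fun k => by simp⟩
      smul_mem' := by
        rintro c x ⟨M, hM⟩
        refine ⟨‖c‖ * M, fun k => ?_⟩
        rw [map_smul, norm_smul, mul_assoc]
        gcongr
        exact hM k }
  have hEmem : ∀ x, x ∈ E ↔ ∃ M : ℝ, ∀ k, ‖f k x‖ ≤ M * (1 / 2) ^ k := fun x => Iff.rfl
  have hAE : ∀ K : 𝒦, A K ⊆ E := by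
    intro K x hx
    have h1 : Int.fract t ∉ limsup (B x) atTop := by
      intro h
      apply ht K
      simp only [Set.mem_iUnion]
      exact ⟨x, hx, h⟩
    rw [mem_limsup_iff_frequently_mem, not_frequently] at h1
    have h2 : ∀ᶠ k in atTop, ‖f k x‖ ≤ 1 * (1 / 2) ^ k := by
      filter_upwards [h1] with k hk
      rw [one_mul]
      by_contra hcon
      push Not at hcon
      apply hk
      refine ⟨Int.fract_nonneg t, Int.fract_lt_one t, ?_⟩
      simp only [S, Finset.mem_filter, Finset.mem_univ, true_and]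
      exact hcon
    obtain ⟨n, hn⟩ := eventually_atTop.mp h2
    refine ⟨1 + ∑ k ∈ Finset.range n, ‖f k x‖ * 2 ^ k, fun k => ?_⟩
    have h4 : 0 ≤ ∑ k ∈ Finset.range n, ‖f k x‖ * 2 ^ k := by positivity
    rcases le_or_gt n k with hk | hk
    · refine (hn k hk).trans ?_
      gcongr
      linarith
    · have h3 : ‖f k x‖ * 2 ^ k ≤ ∑ k ∈ Finset.range n, ‖f k x‖ * 2 ^ k :=
        Finset.single_le_sum (f := fun k => ‖f k x‖ * 2 ^ k) (fun _ _ => by positivity)
          (Finset.mem_range.mpr hk)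
      calc ‖f k x‖ = (‖f k x‖ * 2 ^ k) * (1 / 2) ^ k := by
            rw [mul_assoc, ← mul_pow]; norm_num
        _ ≤ (1 + ∑ k ∈ Finset.range n, ‖f k x‖ * 2 ^ k) * (1 / 2) ^ k := by
            gcongr
            linarith
  have hEdense : Dense (E : Set X) := by
    have h1 : (Submodule.span 𝕜 (⋃₀ 𝒦)) ≤ E.topologicalClosure := by
      rw [Submodule.span_le]
      refine Set.sUnion_subset fun K hKK => ?_
      refine hAgen ⟨K, hKK⟩ E.topologicalClosure E.isClosed_topologicalClosure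
        ((hAE ⟨K, hKK⟩).trans E.le_topologicalClosure) ?_
      intro x hx
      apply E.le_topologicalClosure
      refine ⟨0, fun k => ?_⟩
      have : f k x = 0 := hx ⟨k, slot (8 ^ k) (hpos k) (Int.fract t)⟩
      rw [this]; simp
    have h2 : (Submodule.span 𝕜 (⋃₀ 𝒦)).topologicalClosure ≤ E.topologicalClosure :=
      Submodule.topologicalClosure_minimal _ h1 E.isClosed_topologicalClosure
    rw [hspan, top_le_iff] at h2
    rw [Submodule.dense_iff_topologicalClosure_eq_top]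
    exact h2
  exact separable_quotient_of_rapidly_null E hEdense f hf fun x hx => hx

end Vale.Agent.P129
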