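import Mathlib
import Vale.Agent.Lib.P129.Defs

open MeasureTheory

namespace Vale.Agent.P129

/-- The set of cardinals defining `covNull` is nonempty, so the infimum is attained. -/
theorem covNull_mem : ∃ 𝒩 : Set (Set ℝ), Cardinal.mk 𝒩 = covNull ∧
    (∀ N ∈ 𝒩, volume N = 0) ∧ ⋃₀ 𝒩 = Set.univ := by
  have hne : {κ : Cardinal.{0} | ∃ 𝒩 : Set (Set ℝ), Cardinal.mk 𝒩 = κ ∧
      (∀ N ∈ 𝒩, volume N = 0) ∧ ⋃₀ 𝒩 = Set.univ}.Nonempty := by
    refine ⟨_, Set.range (fun x : ℝ => ({x} : Set ℝ)), rfl, ?_, ?_⟩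
    · rintro _ ⟨x, rfl⟩; simp
    · ext x; simp
  exact csInf_mem hne

/-- `cov(N)` is uncountable. -/
theorem aleph0_lt_covNull : Cardinal.aleph0 < covNull := by
  by_contra hcon
  obtain ⟨𝒩, hcard, hnull, hcov⟩ := covNull_mem
  rw [← hcard, not_lt, Cardinal.mk_le_aleph0_iff] at hcon
  have hc : 𝒩.Countable := hcon
  have h0 : volume (⋃₀ 𝒩) = 0 := (measure_sUnion_null_iff hc).mpr hnull
  rw [hcov] at h0
  simp at h0

end Vale.Agent.P129
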